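import Vale.Agent.P141.H958.WeakW

/-!
# P141, line (A): nested families with packing

`Nn r A a` : number of members of `A` above `a` (with `a` itself) in a forest order `r`.

* `pack_geo` : if the members below any member weigh at most `B` times its weight then the members
  with more than `l` members above them weigh at most `(1 - 1 / B) ^ l` times the whole;
* squares: `sub`, `Sq_geo` (from `PackQ`), `Sq_one` (at a point, one scale for each value of `Nn`).
-/

namespace Vale.Agent.P141.H327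

open Finset Vale.Agent.P141.PL Vale.Agent.P141.H958

noncomputable section

open scoped Classical

/-! ### Forest orders -/

section

variable {α : Type*} {r : α → α → Prop} {A : Finset α}

/-- the members of `A` above `a` -/
def up (r : α → α → Prop) (A : Finset α) (a : α) : Finset α := A.filter fun b => r a b

/-- the number of members of `A` above `a` -/
def Nn (r : α → α → Prop) (A : Finset α) (a : α) : ℕ := (up r A a).card

/-- a forest order: the elements above any element form a chain -/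
structure Forest (r : α → α → Prop) : Prop where
  refl : ∀ a, r a a
  trans : ∀ a b c, r a b → r b c → r a c
  anti : ∀ a b, r a b → r b a → a = b
  chain : ∀ a b c, r a b → r a c → r b c ∨ r c b

theorem mem_up {a b : α} : b ∈ up r A a ↔ b ∈ A ∧ r a b := by
  unfold up
  rw [mem_filter]

theorem up_sub (h : Forest r) {a b : α} (hab : r a b) : up r A b ⊆ up r A a := by
  intro c hc
  rw [mem_up] at hc ⊢
  exact ⟨hc.1, h.trans _ _ _ hab hc.2⟩

theorem Nn_mono (h : Forest r) {a b : α} (hab : r a b) : Nn r A b ≤ Nn r A a :=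
  card_le_card (up_sub h hab)

theorem Nn_lt (h : Forest r) {a b : α} (ha : a ∈ A) (hab : r a b) (hne : a ≠ b) :
    Nn r A b < Nn r A a := by
  refine card_lt_card ?_
  rw [ssubset_iff_of_subset (up_sub h hab)]
  refine ⟨a, mem_up.2 ⟨ha, h.refl a⟩, ?_⟩
  rw [mem_up]
  rintro ⟨_, hba⟩
  exact hne (h.anti _ _ hab hba)

theorem Nn_pos (h : Forest r) {a : α} (ha : a ∈ A) : 1 ≤ Nn r A a :=
  card_pos.2 ⟨a, mem_up.2 ⟨ha, h.refl a⟩⟩

/-- comparable members with the same number are equal -/
theorem eq_of_Nn (h : Forest r) {a b : α} (ha : a ∈ A) (hb : b ∈ A) (hab : r a b ∨ r b a)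
    (he : Nn r A a = Nn r A b) : a = b := by
  by_contra hne
  rcases hab with hab | hab
  · have := Nn_lt h ha hab hne
    omega
  · have := Nn_lt h hb hab (Ne.symm hne)
    omega

/-- two members above the same element with the same number are equal -/
theorem up_inj (h : Forest r) (a : α) {b c : α} (hb : b ∈ up r A a) (hc : c ∈ up r A a)
    (he : Nn r A b = Nn r A c) : b = c := by
  rw [mem_up] at hb hc
  exact eq_of_Nn h hb.1 hc.1 (h.chain _ _ _ hb.2 hc.2) he

/-- the numbers above a member are `1, ..., Nn a`, each once -/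
theorem image_up (h : Forest r) (a : α) :
    (up r A a).image (Nn r A) = Icc 1 (Nn r A a) := by
  refine eq_of_subset_of_card_le ?_ ?_
  · intro i hi
    rw [mem_image] at hi
    obtain ⟨b, hb, rfl⟩ := hi
    rw [mem_up] at hb
    rw [mem_Icc]
    exact ⟨Nn_pos h hb.1, Nn_mono h hb.2⟩
  · rw [card_image_of_injOn fun b hb c hc he => up_inj h a (mem_coe.1 hb) (mem_coe.1 hc) he,
      Nat.card_Icc]
    simp only [Nat.add_sub_cancel]
    exact le_rfl

theorem exists_up (h : Forest r) (a : α) {i : ℕ} (h1 : 1 ≤ i) (h2 : i ≤ Nn r A a) :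
    ∃ b ∈ A, r a b ∧ Nn r A b = i := by
  have hi : i ∈ (up r A a).image (Nn r A) := by
    rw [image_up h]
    exact mem_Icc.2 ⟨h1, h2⟩
  rw [mem_image] at hi
  obtain ⟨b, hb, hbi⟩ := hi
  rw [mem_up] at hb
  exact ⟨b, hb.1, hb.2, hbi⟩

/-- **Packing in the generations.** -/
theorem gen_le (h : Forest r) {w : α → ℝ} (hw : ∀ a ∈ A, 0 ≤ w a) {B : ℝ}
    (hB : ∀ a ∈ A, ∑ b ∈ A.filter (fun b => r b a), w b ≤ B * w a) {i : ℕ} (hi : 1 ≤ i) :
    ∑ b ∈ A.filter (fun b => i ≤ Nn r A b), w b ≤
      B * ∑ a ∈ A.filter (fun a => Nn r A a = i), w a := by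
  have h1 : ∑ b ∈ A.filter (fun b => i ≤ Nn r A b), w b ≤
      ∑ b ∈ A, ∑ a ∈ A.filter (fun a => Nn r A a = i), if r b a then w b else 0 := by
    rw [sum_filter]
    refine sum_le_sum fun b hb => ?_
    split_ifs with h2
    · obtain ⟨a, ha, hba, hai⟩ := exists_up h b hi h2
      refine le_trans ?_ (single_le_sum (f := fun a => if r b a then w b else 0) (fun c _ => ?_)
        (mem_filter.2 ⟨ha, hai⟩))
      · simp only [if_pos hba, le_refl]
      · show 0 ≤ if r b c then w b else 0
        split_ifs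
        · exact hw b hb
        · exact le_rfl
    · exact sum_nonneg fun a _ => by
        split_ifs
        · exact hw b hb
        · exact le_rfl
  refine h1.trans ?_
  rw [sum_comm, mul_sum]
  refine sum_le_sum fun a ha => ?_
  rw [← sum_filter]
  exact hB a (mem_filter.1 ha).1

/-- **Geometric decay of the generations.** -/
theorem pack_geo (h : Forest r) {w : α → ℝ} (hw : ∀ a ∈ A, 0 ≤ w a) {B : ℝ} (hB1 : 1 ≤ B)
    (hB : ∀ a ∈ A, ∑ b ∈ A.filter (fun b => r b a), w b ≤ B * w a) (l : ℕ) :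
    ∑ a ∈ A.filter (fun a => l < Nn r A a), w a ≤ (1 - 1 / B) ^ l * ∑ a ∈ A, w a := by
  have hB0 : 0 < B := by linarith
  have hq : 0 ≤ 1 - 1 / B := by
    rw [sub_nonneg, div_le_one hB0]
    exact hB1
  induction l with
  | zero =>
    rw [pow_zero, one_mul]
    exact sum_le_sum_of_subset_of_nonneg (filter_subset _ _) fun a ha _ => hw a ha
  | succ l ih =>
    have e1 : ∑ a ∈ A.filter (fun a => l < Nn r A a), w a =
        ∑ a ∈ A.filter (fun a => Nn r A a = l + 1), w a +
          ∑ a ∈ A.filter (fun a => l + 1 < Nn r A a), w a := by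
      rw [sum_filter, sum_filter, sum_filter, ← sum_add_distrib]
      refine sum_congr rfl fun a _ => ?_
      by_cases h1 : Nn r A a = l + 1
      · rw [if_pos (by omega), if_pos h1, if_neg (by omega), add_zero]
      · by_cases h2 : l + 1 < Nn r A a
        · rw [if_pos (by omega), if_neg h1, if_pos h2, zero_add]
        · rw [if_neg (by omega), if_neg h1, if_neg h2, add_zero]
    have h2 := gen_le h hw hB (i := l + 1) (by omega)
    have e2 : A.filter (fun b => l + 1 ≤ Nn r A b) = A.filter (fun a => l < Nn r A a) := by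
      refine filter_congr fun a _ => ?_
      omega
    rw [e2] at h2
    set S := ∑ a ∈ A.filter (fun a => l < Nn r A a), w a
    set T := ∑ a ∈ A.filter (fun a => Nn r A a = l + 1), w a
    set S' := ∑ a ∈ A.filter (fun a => l + 1 < Nn r A a), w a
    have h3 : S / B ≤ T := by
      rw [div_le_iff₀ hB0]
      linarith
    have h4 : S' ≤ (1 - 1 / B) * S := by
      have : (1 - 1 / B) * S = S - S / B := by ring
      rw [this]
      linarith
    refine h4.trans ?_
    rw [pow_succ]
    calc (1 - 1 / B) * S ≤ (1 - 1 / B) * ((1 - 1 / B) ^ l * ∑ a ∈ A, w a) :=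
          mul_le_mul_of_nonneg_left ih hq
      _ = (1 - 1 / B) ^ l * (1 - 1 / B) * ∑ a ∈ A, w a := by ring

/-- at most `l` members above a fixed element have a number `≤ l` -/
theorem card_up_le (h : Forest r) (a : α) (l : ℕ) :
    ((up r A a).filter fun b => Nn r A b ≤ l).card ≤ l := by
  have h1 : (((up r A a).filter fun b => Nn r A b ≤ l).image (Nn r A)).card =
      ((up r A a).filter fun b => Nn r A b ≤ l).card := by
    refine card_image_of_injOn fun b hb c hc he => ?_
    exact up_inj h a (mem_filter.1 (mem_coe.1 hb)).1 (mem_filter.1 (mem_coe.1 hc)).1 he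
  rw [← h1]
  have h2 : ((up r A a).filter fun b => Nn r A b ≤ l).image (Nn r A) ⊆ Icc 1 l := by
    intro i hi
    rw [mem_image] at hi
    obtain ⟨b, hb, rfl⟩ := hi
    rw [mem_filter, mem_up] at hb
    rw [mem_Icc]
    exact ⟨Nn_pos h hb.1.1, hb.2⟩
  refine (card_le_card h2).trans ?_
  rw [Nat.card_Icc]
  omega

end

/-! ### Squares -/

/-- the square `a` is contained in the square `b` -/
def sub (a b : ℕ × ℤ × ℤ) : Prop :=
  a.1 ≤ b.1 ∧ ix (b.1 - a.1) a.2.1 = b.2.1 ∧ ix (b.1 - a.1) a.2.2 = b.2.2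

theorem sub_forest : Forest sub where
  refl a := by
    unfold sub
    rw [Nat.sub_self, PL.ix_zero, PL.ix_zero]
    exact ⟨le_rfl, rfl, rfl⟩
  trans a b c hab hbc := by
    obtain ⟨h1, h2, h3⟩ := hab
    obtain ⟨h4, h5, h6⟩ := hbc
    refine ⟨h1.trans h4, ?_, ?_⟩
    · rw [← h5, ← h2, ix_ix]
      congr 1
      omega
    · rw [← h6, ← h3, ix_ix]
      congr 1
      omega
  anti a b hab hba := by
    obtain ⟨h1, h2, h3⟩ := hab
    have e : a.1 = b.1 := le_antisymm h1 hba.1
    rw [e, Nat.sub_self, PL.ix_zero] at h2 h3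
    exact Prod.ext e (Prod.ext h2 h3)
  chain a b c hab hac := by
    obtain ⟨h1, h2, h3⟩ := hab
    obtain ⟨h4, h5, h6⟩ := hac
    rcases le_total b.1 c.1 with h | h
    · left
      refine ⟨h, ?_, ?_⟩
      · rw [← h5, ← h2, ix_ix]
        congr 1
        omega
      · rw [← h6, ← h3, ix_ix]
        congr 1
        omega
    · right
      refine ⟨h, ?_, ?_⟩
      · rw [← h5, ← h2, ix_ix]
        congr 1
        omega
      · rw [← h6, ← h3, ix_ix]
        congr 1
        omega

/-- the number of affected squares which contain the square `a` -/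
def NQ (N : ℕ) (R S : ℤ) (Q : ℕ → ℤ → ℤ → Prop) (a : ℕ × ℤ × ℤ) : ℕ := Nn sub (Aff N R S Q) a

theorem packQ_below {N : ℕ} {R S : ℤ} {Q : ℕ → ℤ → ℤ → Prop} {B : ℝ} (h : PackQ N R S Q B) :
    ∀ a ∈ Aff N R S Q, ∑ b ∈ (Aff N R S Q).filter (fun b => sub b a), (4 : ℝ) ^ b.1 ≤
      B * 4 ^ a.1 := by
  intro a ha
  have e : (Aff N R S Q).filter (fun b => sub b a) = (Aff N R S Q).filter (fun i => i.1 ≤ a.1 ∧
      ix (a.1 - i.1) i.2.1 = a.2.1 ∧ ix (a.1 - i.1) i.2.2 = a.2.2) := by
    ext b
    rw [mem_filter, mem_filter]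
    exact Iff.rfl
  rw [e]
  exact h a.1 (mem_Aff.1 ha).1.le a.2.1 a.2.2

theorem packQ_all {N : ℕ} {R S : ℤ} {Q : ℕ → ℤ → ℤ → Prop} {B : ℝ} (h : PackQ N R S Q B) :
    ∑ b ∈ Aff N R S Q, (4 : ℝ) ^ b.1 ≤ B * 4 ^ N := by
  have e : (Aff N R S Q).filter (fun i => i.1 ≤ N ∧ ix (N - i.1) i.2.1 = R ∧
      ix (N - i.1) i.2.2 = S) = Aff N R S Q := by
    refine filter_true_of_mem fun i hi => ?_
    obtain ⟨h1, h2, h3, _⟩ := mem_Aff.1 hi
    exact ⟨h1.le, mem_iv.1 h2, mem_iv.1 h3⟩
  have := h N le_rfl R S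
  rw [e] at this
  exact this

/-- **(X1).** The affected squares below more than `l` affected squares (themselves counted). -/
theorem Sq_geo {N : ℕ} {R S : ℤ} {Q : ℕ → ℤ → ℤ → Prop} {B : ℝ} (hB : 1 ≤ B)
    (h : PackQ N R S Q B) (l : ℕ) :
    ∑ a ∈ (Aff N R S Q).filter (fun a => l < NQ N R S Q a), (4 : ℝ) ^ a.1 ≤
      (1 - 1 / B) ^ l * (B * 4 ^ N) := by
  have hq : 0 ≤ 1 - 1 / B := by
    rw [sub_nonneg, div_le_one (by linarith)]
    exact hB
  exact (pack_geo sub_forest (fun a _ => by positivity) hB (packQ_below h) l).trans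
    (mul_le_mul_of_nonneg_left (packQ_all h) (pow_nonneg hq l))

/-- the square of scale `k` at the point `(x, z)` -/
def sq (k : ℕ) (x z : ℤ) : ℕ × ℤ × ℤ := (k, ix k x, ix k z)

theorem sub_sq {k j : ℕ} (h : k ≤ j) (x z : ℤ) : sub (sq k x z) (sq j x z) := by
  refine ⟨h, ?_, ?_⟩ <;>
  · simp only [sq]
    rw [ix_ix]
    congr 1
    omega

/-- **At a point there is at most one scale for each value of the number.** -/
theorem Sq_one {N : ℕ} {R S : ℤ} {Q : ℕ → ℤ → ℤ → Prop} {k j : ℕ} {x z : ℤ}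
    (hk : sq k x z ∈ Aff N R S Q) (hj : sq j x z ∈ Aff N R S Q)
    (he : NQ N R S Q (sq k x z) = NQ N R S Q (sq j x z)) : k = j := by
  have hc : sub (sq k x z) (sq j x z) ∨ sub (sq j x z) (sq k x z) := by
    rcases le_total k j with h | h
    · exact Or.inl (sub_sq h x z)
    · exact Or.inr (sub_sq h x z)
  exact congrArg Prod.fst (eq_of_Nn sub_forest hk hj hc he)

theorem sq_mem {N : ℕ} {R S : ℤ} {Q : ℕ → ℤ → ℤ → Prop} {k : ℕ} {x z : ℤ} (hx : x ∈ iv N R)
    (hz : z ∈ iv N S) (hk : k < N) (hQ : Q k (ix k x) (ix k z)) : sq k x z ∈ Aff N R S Q := by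
  rw [mem_Aff]
  refine ⟨hk, ?_, ?_, hQ⟩
  · simp only [sq]
    rw [mem_iv, ix_ix]
    have : k + (N - k) = N := by omega
    rw [this]
    exact mem_iv.1 hx
  · simp only [sq]
    rw [mem_iv, ix_ix]
    have : k + (N - k) = N := by omega
    rw [this]
    exact mem_iv.1 hz

/-- **Sum over the affected scales of a point**, split by the number. -/
theorem Sq_sum {N : ℕ} {R S : ℤ} {Q : ℕ → ℤ → ℤ → Prop} {x z : ℤ} (hx : x ∈ iv N R)
    (hz : z ∈ iv N S) (f : ℕ → ℝ) (l : ℕ) :
    ∑ k ∈ range N, (if Q k (ix k x) (ix k z) ∧ NQ N R S Q (sq k x z) ≤ l then f k else 0) =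
      ∑ i ∈ Icc 1 l, ∑ k ∈ range N,
        (if Q k (ix k x) (ix k z) ∧ NQ N R S Q (sq k x z) = i then f k else 0) := by
  rw [sum_comm]
  refine sum_congr rfl fun k hk => ?_
  by_cases hQ : Q k (ix k x) (ix k z)
  · have h1 := Nn_pos sub_forest (sq_mem hx hz (mem_range.1 hk) hQ)
    have h1' : 1 ≤ NQ N R S Q (sq k x z) := h1
    simp only [hQ, true_and]
    rw [sum_ite_eq (Icc 1 l) (NQ N R S Q (sq k x z)) fun _ => f k]
    simp only [mem_Icc]
    by_cases h2 : NQ N R S Q (sq k x z) ≤ l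
    · rw [if_pos h2, if_pos ⟨h1', h2⟩]
    · rw [if_neg h2, if_neg fun h => h2 h.2]
  · simp only [hQ, false_and, if_false, sum_const_zero]

end

end Vale.Agent.P141.H327
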